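import Mathlib
import Vale.Agent.P150.H185.CritDet

/-! Deterministic end of the critical exponent argument, and the choice of the parameters. -/

open MeasureTheory ProbabilityTheory Filter Topology
open scoped Matrix

namespace Vale.Agent.P150.H464C

open Vale.Agent.P150.Cav Vale.Agent.P150.H185.Crit

variable {n : ℕ}

/-- (E1) the planted quantity `b / (1 - b)` has imaginary part at most `- 1 / (6 τ)`. -/
theorem im_frac {τ : ℝ} (hτ : 0 < τ) (hτ1 : τ ≤ 1 / 4) {u b : ℂ} (hu : u.im = τ)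
    (hnu : ‖u‖ ^ 2 = (1 + τ) ^ 2 + τ ^ 2) (hnd : ‖u - 1‖ ^ 2 = 2 * τ ^ 2)
    (hb : ‖b - u⁻¹‖ ≤ τ / 10) : 1 / (6 * τ) ≤ -(b / (1 - b)).im := by
  have hN1 : 1 ≤ ‖u‖ := by
    have h : (1 : ℝ) ≤ ‖u‖ ^ 2 := by rw [hnu]; nlinarith only [hτ]
    exact (one_le_sq_iff₀ (norm_nonneg _)).1 h
  have hu0 : u ≠ 0 := by
    intro h; rw [h] at hu; simp only [Complex.zero_im] at hu; exact hτ.ne hu
  -- the imaginary part of `b`
  have h5 : (u⁻¹).im = -(τ / ‖u‖ ^ 2) := by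
    rw [Complex.inv_im, Complex.sq_norm, neg_div, hu]
  have hbim : τ / ‖u‖ ^ 2 - τ / 10 ≤ -b.im := by
    have h3 := (Complex.abs_im_le_norm (b - u⁻¹)).trans hb
    have h4 := le_abs_self (b - u⁻¹).im
    rw [Complex.sub_im, h5] at h4
    rw [Complex.sub_im, h5] at h3
    linarith only [h3, h4]
  have hnu2 : ‖u‖ ^ 2 ≤ 13 / 8 := by
    rw [hnu]; nlinarith only [hτ, hτ1]
  have hnup : 0 < ‖u‖ ^ 2 := by positivity
  have h6 : 8 / 13 * τ ≤ τ / ‖u‖ ^ 2 := by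
    rw [le_div_iff₀ hnup]
    nlinarith only [hτ, hnu2]
  have hbim2 : 1 / 2 * τ ≤ -b.im := by linarith only [hbim, h6, hτ]
  -- the norm of `1 - b`
  have h7 : ‖u - 1‖ ≤ 71 / 50 * τ := by
    have h : ‖u - 1‖ ^ 2 ≤ (71 / 50 * τ) ^ 2 := by
      rw [hnd]; nlinarith only [mul_pos hτ hτ]
    exact (abs_le_of_sq_le_sq' h (by positivity)).2
  have h8 : ‖1 - u⁻¹‖ ≤ 71 / 50 * τ := by
    have e : 1 - u⁻¹ = (u - 1) * u⁻¹ := by field_simp
    rw [e, norm_mul, norm_inv]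
    refine le_trans (mul_le_of_le_one_right (norm_nonneg _) ?_) h7
    exact inv_le_one_of_one_le₀ hN1
  have h9 : ‖1 - b‖ ≤ 38 / 25 * τ := by
    have e : 1 - b = (1 - u⁻¹) - (b - u⁻¹) := by ring
    rw [e]
    refine (norm_sub_le _ _).trans ?_
    linarith only [h8, hb]
  have h10 : ‖1 - b‖ ^ 2 ≤ 3 * τ ^ 2 := by
    have := pow_le_pow_left₀ (norm_nonneg _) h9 2
    nlinarith only [this, mul_pos hτ hτ]
  have hne : 1 - b ≠ 0 := by
    intro h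
    have h' := congrArg Complex.im h
    rw [Complex.sub_im, Complex.one_im, Complex.zero_im] at h'
    linarith only [h', hbim2, hτ]
  have hpos : 0 < ‖1 - b‖ ^ 2 := by
    have := norm_pos_iff.2 hne
    positivity
  have e1 : b / (1 - b) = (1 - b)⁻¹ - 1 := by
    field_simp
    ring
  have e2 : (b / (1 - b)).im = b.im / ‖1 - b‖ ^ 2 := by
    rw [e1, Complex.sub_im, Complex.one_im, sub_zero, Complex.inv_im, Complex.sq_norm,
      Complex.sub_im, Complex.one_im]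
    ring
  rw [e2, ← neg_div, le_div_iff₀ hpos, one_div, inv_mul_le_iff₀ (by positivity)]
  have h11 : 1 / 2 * τ * (6 * τ) ≤ -b.im * (6 * τ) :=
    mul_le_mul_of_nonneg_right hbim2 (by positivity)
  nlinarith only [h11, h10]

lemma neg_im_FF_nonneg (z : ℂ) (hz : 0 < z.im) (g : Pairs n → ℝ) (x : Cfg n) :
    0 ≤ -((n : ℂ)⁻¹ * FF z g x).im := by
  have h1 := im_Gx z hz g x
  have h2 : 0 ≤ z.im * nsq (Gx z g x) := mul_nonneg hz.le (nsq_nonneg _)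
  have h3 : ((n : ℂ)⁻¹) = (((n : ℝ)⁻¹ : ℝ) : ℂ) := by push_cast; rfl
  rw [h3, Complex.im_ofReal_mul]
  have h4 : -(FF z g x).im = z.im * nsq (Gx z g x) := h1
  have h5 : -((n : ℝ)⁻¹ * (FF z g x).im) = (n : ℝ)⁻¹ * -(FF z g x).im := by ring
  rw [h5, h4]
  positivity

lemma aa_eq_avg (z : ℂ) (β : ℝ) (g : Pairs n → ℝ) :
    -(aa z β g).im = ∑ x : Cfg n, pw β g x * -((n : ℂ)⁻¹ * FF z g x).im := by
  unfold aa
  rw [Finset.mul_sum, Complex.im_sum, ← Finset.sum_neg_distrib]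
  refine Finset.sum_congr rfl fun x _ => ?_
  have e : (n : ℂ)⁻¹ * ((pw β g x : ℂ) * ∑ l, Gx z g x l * (sp (x l) : ℂ)) =
      (pw β g x : ℂ) * ((n : ℂ)⁻¹ * FF z g x) := by
    unfold FF; ring
  rw [e, Complex.im_ofReal_mul]
  ring

/-- most configurations have a large planted resolvent entry: lower bound of `aa`. -/
theorem aa_lower {τ : ℝ} (hτ : 0 < τ) (z : ℂ) (hz : 0 < z.im) (β : ℝ) (g : Pairs n → ℝ)
    (S : Cfg n → ℝ) (hS0 : ∀ x, 0 ≤ S x)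
    (hS1 : ∀ x, -((n : ℂ)⁻¹ * FF z g x).im < 1 / (6 * τ) → 1 ≤ S x)
    (hS : ∑ x, pw β g x * S x ≤ 1 / 2) : 1 / (12 * τ) ≤ -(aa z β g).im := by
  rw [aa_eq_avg]
  have h1 : ∀ x : Cfg n, pw β g x * (1 / (6 * τ)) - 1 / (6 * τ) * (pw β g x * S x) ≤
      pw β g x * -((n : ℂ)⁻¹ * FF z g x).im := by
    intro x
    have hp := (pw_pos β g x).le
    have h0 := neg_im_FF_nonneg z hz g x
    have hq : 0 < 1 / (6 * τ) := by positivity
    have e : pw β g x * (1 / (6 * τ)) - 1 / (6 * τ) * (pw β g x * S x) =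
        pw β g x * (1 / (6 * τ) * (1 - S x)) := by ring
    rw [e]
    refine mul_le_mul_of_nonneg_left ?_ hp
    by_cases h : -((n : ℂ)⁻¹ * FF z g x).im < 1 / (6 * τ)
    · have h2 := hS1 x h
      have h3 : 1 / (6 * τ) * (1 - S x) ≤ 0 :=
        mul_nonpos_of_nonneg_of_nonpos hq.le (by linarith only [h2])
      exact h3.trans h0
    · have h2 := hS0 x
      have h3 : 1 / (6 * τ) * (1 - S x) ≤ 1 / (6 * τ) :=
        mul_le_of_le_one_right hq.le (by linarith only [h2])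
      exact h3.trans (not_lt.1 h)
  refine le_trans ?_ (Finset.sum_le_sum fun x _ => h1 x)
  rw [Finset.sum_sub_distrib, ← Finset.sum_mul, ← Finset.mul_sum, pw_sum, one_mul]
  have e2 : 1 / (12 * τ) = 1 / (6 * τ) - 1 / (6 * τ) * (1 / 2) := by
    field_simp
    norm_num
  rw [e2]
  have h4 : 1 / (6 * τ) * ∑ x, pw β g x * S x ≤ 1 / (6 * τ) * (1 / 2) :=
    mul_le_mul_of_nonneg_left hS (by positivity)
  linarith only [h4]

/-- (E2) the gap is at most `96 τ²`. -/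
theorem gap_le_of_aa {τ : ℝ} (hτ : 0 < τ) (z : ℂ) (hz : 0 < z.im) (β : ℝ) (g : Pairs n → ℝ)
    (ha : 1 / (12 * τ) ≤ -(aa z β g).im) (hm : -(mm z g).im ≤ 8 * τ) :
    gap (skJ β g) (fun _ => 0) ≤ 96 * τ ^ 2 := by
  by_cases hγ : 0 < gap (skJ β g) (fun _ => 0)
  · have h1 := neg_im_aa_le z hz hγ le_rfl
    set γ := gap (skJ β g) (fun _ => 0) with hγdef
    have h2 : γ⁻¹ * -(mm z g).im ≤ γ⁻¹ * (8 * τ) := mul_le_mul_of_nonneg_left hm (by positivity)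
    have h3 : 1 / (12 * τ) ≤ γ⁻¹ * (8 * τ) := ha.trans (h1.trans h2)
    rw [inv_mul_eq_div, div_le_div_iff₀ (by positivity) hγ] at h3
    nlinarith only [h3]
  · have : 0 ≤ 96 * τ ^ 2 := by positivity
    linarith only [this, not_lt.1 hγ]

theorem gap_le_of_block {τ : ℝ} (hτ : 0 < τ) (z : ℂ) (hz : 0 < z.im) (β : ℝ)
    (g : Pairs n → ℝ) (S : Cfg n → ℝ) (hS0 : ∀ x, 0 ≤ S x)
    (hS1 : ∀ x, -((n : ℂ)⁻¹ * FF z g x).im < 1 / (6 * τ) → 1 ≤ S x)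
    (hS : ∑ x, pw β g x * S x ≤ 1 / 2) (hm : -(mm z g).im ≤ 8 * τ) :
    gap (skJ β g) (fun _ => 0) ≤ 96 * τ ^ 2 :=
  gap_le_of_aa hτ z hz β g (aa_lower hτ z hz β g S hS0 hS1 hS) hm

/-- (N) the choice of the moment and of the exponent. -/
theorem numbers {K C k : ℝ} (hC : 0 ≤ C) (hk : k < 2 / 3) :
    ∃ d : ℝ, 0 < d ∧ ∃ p : ℕ → ℕ, (∀ᶠ n : ℕ in atTop, 1 ≤ p n ∧
      K * p n * ((n : ℝ) ^ k / n) ≤ (n : ℝ) ^ (-(k / 2))) ∧
      Tendsto (fun n : ℕ => Real.exp ((n : ℝ) ^ d) *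
        (C * (p n : ℝ) ^ 2 * (((n : ℝ) ^ k / n) / (n : ℝ) ^ (-(k / 2)))) ^ (p n)) atTop (𝓝 0) := by
  set c : ℝ := 1 - 3 * k / 2 with hc
  have hc0 : 0 < c := by rw [hc]; linarith only [hk]
  refine ⟨c / 8, by positivity, fun n => ⌈(n : ℝ) ^ (c / 4)⌉₊, ?_, ?_⟩
  · have hlim : Tendsto (fun n : ℕ => 2 * |K| * (n : ℝ) ^ (-(3 * c / 4))) atTop (𝓝 (2 * |K| * 0)) :=
      ((tendsto_rpow_neg_atTop (by positivity : 0 < 3 * c / 4)).comp
        tendsto_natCast_atTop_atTop).const_mul _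
    rw [mul_zero] at hlim
    filter_upwards [hlim.eventually (gt_mem_nhds one_pos), eventually_ge_atTop 1] with n h1 hn
    have hn1 : (1 : ℝ) ≤ n := by exact_mod_cast hn
    have hn0 : (0 : ℝ) < n := by linarith only [hn1]
    have h2 : 1 ≤ (n : ℝ) ^ (c / 4) := Real.one_le_rpow hn1 (by positivity)
    have h3 : ((⌈(n : ℝ) ^ (c / 4)⌉₊ : ℕ) : ℝ) ≤ 2 * (n : ℝ) ^ (c / 4) := by
      have := (Nat.ceil_lt_add_one (by positivity : 0 ≤ (n : ℝ) ^ (c / 4))).le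
      linarith only [this, h2]
    refine ⟨Nat.one_le_ceil_iff.2 (by positivity), ?_⟩
    have e1 : (n : ℝ) ^ k / n = (n : ℝ) ^ (-(k / 2)) * (n : ℝ) ^ (-c) := by
      rw [← Real.rpow_sub_one hn0.ne', ← Real.rpow_add hn0]
      congr 1
      rw [hc]; ring
    rw [e1]
    have h4 : K * ⌈(n : ℝ) ^ (c / 4)⌉₊ * (n : ℝ) ^ (-c) ≤ 1 := by
      have h5 : K * ⌈(n : ℝ) ^ (c / 4)⌉₊ ≤ |K| * (2 * (n : ℝ) ^ (c / 4)) :=
        mul_le_mul (le_abs_self K) h3 (by positivity) (abs_nonneg _)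
      have h6 := mul_le_mul_of_nonneg_right h5 (by positivity : 0 ≤ (n : ℝ) ^ (-c))
      have e2 : |K| * (2 * (n : ℝ) ^ (c / 4)) * (n : ℝ) ^ (-c) =
          2 * |K| * (n : ℝ) ^ (-(3 * c / 4)) := by
        have : (n : ℝ) ^ (c / 4) * (n : ℝ) ^ (-c) = (n : ℝ) ^ (-(3 * c / 4)) := by
          rw [← Real.rpow_add hn0]
          congr 1
          ring
        rw [← this]; ring
      rw [e2] at h6
      exact h6.trans (le_of_lt h1)
    have h7 : 0 ≤ (n : ℝ) ^ (-(k / 2)) := by positivity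
    calc K * ⌈(n : ℝ) ^ (c / 4)⌉₊ * ((n : ℝ) ^ (-(k / 2)) * (n : ℝ) ^ (-c)) =
          (K * ⌈(n : ℝ) ^ (c / 4)⌉₊ * (n : ℝ) ^ (-c)) * (n : ℝ) ^ (-(k / 2)) := by ring
      _ ≤ 1 * (n : ℝ) ^ (-(k / 2)) := mul_le_mul_of_nonneg_right h4 h7
      _ = _ := one_mul _
  · have hlim1 : Tendsto (fun n : ℕ => 4 * C * (n : ℝ) ^ (-(c / 2))) atTop (𝓝 (4 * C * 0)) :=
      ((tendsto_rpow_neg_atTop (by positivity : 0 < c / 2)).comp
        tendsto_natCast_atTop_atTop).const_mul _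
    rw [mul_zero] at hlim1
    have hlim2 : Tendsto (fun n : ℕ => (n : ℝ) ^ (c / 8)) atTop atTop :=
      (tendsto_rpow_atTop (by positivity)).comp tendsto_natCast_atTop_atTop
    have hlim3 : Tendsto (fun n : ℕ => Real.exp (-(n : ℝ) ^ (c / 8))) atTop (𝓝 0) :=
      Real.tendsto_exp_atBot.comp (tendsto_neg_atTop_atBot.comp hlim2)
    refine squeeze_zero' (Eventually.of_forall fun n => by positivity) ?_ hlim3
    filter_upwards [hlim1.eventually (gt_mem_nhds (Real.exp_pos (-1))),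
      hlim2.eventually_ge_atTop 2, eventually_ge_atTop 1] with n h1 hy hn
    have hn1 : (1 : ℝ) ≤ n := by exact_mod_cast hn
    have hn0 : (0 : ℝ) < n := by linarith only [hn1]
    have h2 : 1 ≤ (n : ℝ) ^ (c / 4) := Real.one_le_rpow hn1 (by positivity)
    set p : ℕ := ⌈(n : ℝ) ^ (c / 4)⌉₊ with hp
    have h3 : (p : ℝ) ≤ 2 * (n : ℝ) ^ (c / 4) := by
      have := (Nat.ceil_lt_add_one (by positivity : 0 ≤ (n : ℝ) ^ (c / 4))).le
      linarith only [this, h2]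
    have h3' : (n : ℝ) ^ (c / 4) ≤ p := Nat.le_ceil _
    have e1 : (n : ℝ) ^ k / n / (n : ℝ) ^ (-(k / 2)) = (n : ℝ) ^ (-c) := by
      rw [← Real.rpow_sub_one hn0.ne', ← Real.rpow_sub hn0]
      congr 1
      rw [hc]; ring
    rw [e1]
    have h5 : C * (p : ℝ) ^ 2 * (n : ℝ) ^ (-c) ≤ Real.exp (-1) := by
      refine le_trans ?_ (le_of_lt h1)
      have h6 : (p : ℝ) ^ 2 ≤ (2 * (n : ℝ) ^ (c / 4)) ^ 2 :=
        pow_le_pow_left₀ (by positivity) h3 2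
      have e2 : (2 * (n : ℝ) ^ (c / 4)) ^ 2 * (n : ℝ) ^ (-c) = 4 * (n : ℝ) ^ (-(c / 2)) := by
        have e3 : ((n : ℝ) ^ (c / 4)) ^ 2 * (n : ℝ) ^ (-c) = (n : ℝ) ^ (-(c / 2)) := by
          rw [← Real.rpow_natCast, ← Real.rpow_mul hn0.le, ← Real.rpow_add hn0]
          congr 1
          push_cast
          ring
        rw [mul_pow, mul_assoc, e3]
        norm_num
      calc C * (p : ℝ) ^ 2 * (n : ℝ) ^ (-c) ≤ C * (2 * (n : ℝ) ^ (c / 4)) ^ 2 * (n : ℝ) ^ (-c) :=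
            mul_le_mul_of_nonneg_right (mul_le_mul_of_nonneg_left h6 hC) (by positivity)
        _ = C * ((2 * (n : ℝ) ^ (c / 4)) ^ 2 * (n : ℝ) ^ (-c)) := by ring
        _ = _ := by rw [e2]; ring
    have h7 : (C * (p : ℝ) ^ 2 * (n : ℝ) ^ (-c)) ^ p ≤ Real.exp (-((n : ℝ) ^ (c / 4))) := by
      refine (pow_le_pow_left₀ (by positivity) h5 p).trans ?_
      rw [← Real.exp_nat_mul]
      refine Real.exp_le_exp.2 ?_
      linarith only [h3']
    have h8 : (n : ℝ) ^ (c / 4) = ((n : ℝ) ^ (c / 8)) ^ 2 := by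
      rw [← Real.rpow_natCast, ← Real.rpow_mul hn0.le]
      congr 1
      push_cast
      ring
    calc Real.exp ((n : ℝ) ^ (c / 8)) * (C * (p : ℝ) ^ 2 * (n : ℝ) ^ (-c)) ^ p ≤
          Real.exp ((n : ℝ) ^ (c / 8)) * Real.exp (-((n : ℝ) ^ (c / 4))) :=
          mul_le_mul_of_nonneg_left h7 (Real.exp_pos _).le
      _ = Real.exp ((n : ℝ) ^ (c / 8) - ((n : ℝ) ^ (c / 8)) ^ 2) := by
          rw [← Real.exp_add, h8]; rfl
      _ ≤ _ := by
          refine Real.exp_le_exp.2 ?_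
          nlinarith only [hy]

end Vale.Agent.P150.H464C
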