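import Mathlib
import Vale.Agent.P150.H185.CritSemi

/-! Local semicircle law for high moments:
`E |m - u⁻¹|^(2 p) ≤ (82 p / (n Im z)²)^p` as soon as `48 p / (n Im z) ≤ Im u`. -/

open MeasureTheory ProbabilityTheory Filter Topology
open scoped Matrix

namespace Vale.Agent.P150.H464C

open Vale.Agent.P150.Cav Vale.Agent.P150.H185.Crit

variable {n : ℕ}

lemma measurable_Dmm (z : ℂ) (hz : 0 < z.im) (i j : Fin n) : Measurable (Dmm z i j) := by
  have : Continuous (Dmm (n := n) z i j) := continuous_const.mul (continuous_finsetSum _ fun k _ =>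
    continuous_const.mul (((continuous_Gm z hz k i).mul (continuous_Gm z hz j k)).add
      ((continuous_Gm z hz k j).mul (continuous_Gm z hz i k))))
  exact this.measurable

lemma norm_z_sub_le (z : ℂ) (hz : 0 < z.im) (hn : 0 < n) (g : Pairs n → ℝ) :
    ‖z - 2 * mm z g‖ ≤ ‖z‖ + 2 * (z.im)⁻¹ := by
  refine (norm_sub_le _ _).trans ?_
  rw [norm_mul]
  have := norm_mm_le z hz hn g
  simp only [Complex.norm_ofNat]
  linarith only [this]

lemma hasDerivAt_QQ (z : ℂ) (hz : 0 < z.im) (g : Pairs n → ℝ) (i j : Fin n) (h : i ≠ j) :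
    HasDerivAt (fun s => QQ z (Function.update g (pr i j h) s))
      ((z - 2 * mm z g) * Dmm z i j g) (g (pr i j h)) := by
  have h1 := hasDerivAt_mm z hz g i j h
  unfold QQ
  have h3 := ((h1.const_mul z).sub_const 1).fun_sub (h1.fun_pow 2)
  refine h3.congr_deriv ?_
  simp only [Function.update_eq_self]
  push_cast
  ring

lemma continuous_QQ (z : ℂ) (hz : 0 < z.im) : Continuous (fun g : Pairs n → ℝ => QQ z g) := by
  have hcm := continuous_mm (n := n) z hz
  unfold QQ; fun_prop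

/-- the test function -/
noncomputable def Psi (z : ℂ) (k : ℕ) (g : Pairs n → ℝ) : ℂ :=
  (starRingEnd ℂ) (QQ z g) ^ (k + 1) * QQ z g ^ k

/-- its derivative -/
noncomputable def DPsi (z : ℂ) (k : ℕ) (i j : Fin n) (g : Pairs n → ℝ) : ℂ :=
  ((k + 1 : ℕ) : ℂ) * (starRingEnd ℂ) (QQ z g) ^ k *
      (starRingEnd ℂ) ((z - 2 * mm z g) * Dmm z i j g) * QQ z g ^ k +
    (starRingEnd ℂ) (QQ z g) ^ (k + 1) *
      ((k : ℂ) * QQ z g ^ (k - 1) * ((z - 2 * mm z g) * Dmm z i j g))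

lemma hasDerivAt_Psi (z : ℂ) (hz : 0 < z.im) (k : ℕ) (g : Pairs n → ℝ) (i j : Fin n)
    (h : i ≠ j) :
    HasDerivAt (fun s => Psi z k (Function.update g (pr i j h) s)) (DPsi z k i j g)
      (g (pr i j h)) := by
  have h2 := hasDerivAt_QQ z hz g i j h
  have h2' : HasDerivAt (fun s => (starRingEnd ℂ) (QQ z (Function.update g (pr i j h) s)))
      ((starRingEnd ℂ) ((z - 2 * mm z g) * Dmm z i j g)) (g (pr i j h)) := h2.star_conj
  have h3 := (h2'.fun_pow (k + 1)).fun_mul (h2.fun_pow k)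
  refine h3.congr_deriv ?_
  simp only [Function.update_eq_self]
  unfold DPsi
  simp only [Nat.add_sub_cancel]

lemma norm_DPsi_le (z : ℂ) (k : ℕ) (i j : Fin n) (g : Pairs n → ℝ) :
    ‖DPsi z k i j g‖ ≤ (2 * k + 1) * ‖QQ z g‖ ^ (2 * k) *
      (‖z - 2 * mm z g‖ * ‖Dmm z i j g‖) := by
  unfold DPsi
  refine (norm_add_le _ _).trans ?_
  set Q : ℝ := ‖QQ z g‖ with hQ
  set D : ℝ := ‖z - 2 * mm z g‖ * ‖Dmm z i j g‖ with hD
  have e1 : ‖((k + 1 : ℕ) : ℂ) * (starRingEnd ℂ) (QQ z g) ^ k *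
      (starRingEnd ℂ) ((z - 2 * mm z g) * Dmm z i j g) * QQ z g ^ k‖ =
      (k + 1) * Q ^ (2 * k) * D := by
    rw [norm_mul, norm_mul, norm_mul, norm_pow, norm_pow, RCLike.norm_conj, RCLike.norm_conj,
      norm_mul, ← hQ, ← hD, Complex.norm_natCast]
    push_cast
    rw [two_mul, pow_add]
    ring
  have e2 : ‖(starRingEnd ℂ) (QQ z g) ^ (k + 1) *
      ((k : ℂ) * QQ z g ^ (k - 1) * ((z - 2 * mm z g) * Dmm z i j g))‖ =
      k * Q ^ (2 * k) * D := by
    rw [norm_mul, norm_mul, norm_mul, norm_pow, norm_pow, RCLike.norm_conj, norm_mul, ← hQ,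
      ← hD, Complex.norm_natCast]
    cases k with
    | zero => simp
    | succ l =>
      rw [Nat.add_sub_cancel]
      have : Q ^ (2 * (l + 1)) = Q ^ (l + 1 + 1) * Q ^ l := by
        rw [← pow_add]; congr 1; ring
      rw [this]
      ring
  rw [e1, e2]
  apply le_of_eq
  ring

lemma norm_Psi (z : ℂ) (k : ℕ) (g : Pairs n → ℝ) : ‖Psi z k g‖ = ‖QQ z g‖ ^ (2 * k + 1) := by
  unfold Psi
  rw [norm_mul, norm_pow, norm_pow, RCLike.norm_conj, ← pow_add]
  congr 1
  ring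

/-- One step: `E |Q|^(2 k + 2) ≤ 82 (k + 1) w² E |Q|^(2 k)`. -/
theorem moment_step (u : ℂ) (hu : 0 < u.im) (hu1 : 1 ≤ ‖u‖) (hus : ‖u - u⁻¹‖ ≤ 4 * u.im) (z : ℂ)
    (hzu : z = u + u⁻¹) (hz : 0 < z.im) (hn : 0 < n) (k : ℕ)
    (hbig : 48 * (k + 1) * ((z.im)⁻¹ * (n : ℝ)⁻¹) ≤ u.im) :
    ∫ g : Pairs n → ℝ, ‖QQ z g‖ ^ (2 * (k + 1)) ∂(disorder n) ≤
      82 * (k + 1) * ((z.im)⁻¹ * (n : ℝ)⁻¹ * u.im) ^ 2 *
        ∫ g : Pairs n → ℝ, ‖QQ z g‖ ^ (2 * k) ∂(disorder n) := by
  set η := (z.im)⁻¹ with hη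
  have hη0 : 0 < η := by positivity
  set t : ℝ := u.im with ht
  have hn' : (0 : ℝ) < n := by exact_mod_cast hn
  set a : ℝ := η * (n : ℝ)⁻¹ with ha
  have ha0 : 0 < a := by positivity
  set CQ : ℝ := ‖z‖ * η + 1 + η ^ 2 with hCQ
  have hCQ0 : 0 ≤ CQ := by positivity
  have hcm := continuous_mm (n := n) z hz
  have hQc := continuous_QQ (n := n) z hz
  have hQcm := hQc.measurable
  have hQbdd : ∀ g : Pairs n → ℝ, ‖QQ z g‖ ≤ CQ := fun g => norm_QQ_le z hz hn g
  have hDb : ∀ i j (g : Pairs n → ℝ), ‖DPsi z k i j g‖ ≤ (2 * k + 1) * CQ ^ (2 * k) *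
      ((‖z‖ + 2 * η) * (((n : ℝ) * Real.sqrt n)⁻¹ * (2 * η ^ 2))) := by
    intro i j g
    refine (norm_DPsi_le z k i j g).trans ?_
    refine mul_le_mul (mul_le_mul_of_nonneg_left
      (pow_le_pow_left₀ (norm_nonneg _) (hQbdd g) _) (by positivity)) ?_ (by positivity)
      (by positivity)
    exact mul_le_mul (norm_z_sub_le z hz hn g) (norm_Dmm_le z hz i j g) (norm_nonneg _)
      (by positivity)
  have hPb : ∀ g : Pairs n → ℝ, ‖Psi z k g‖ ≤ CQ ^ (2 * k + 1) := by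
    intro g
    rw [norm_Psi]
    exact pow_le_pow_left₀ (norm_nonneg _) (hQbdd g) _
  set CC : ℝ := CQ ^ (2 * k + 1) + (2 * k + 1) * CQ ^ (2 * k) *
      ((‖z‖ + 2 * η) * (((n : ℝ) * Real.sqrt n)⁻¹ * (2 * η ^ 2))) with hCC
  have hcj : Continuous (fun g : Pairs n → ℝ => (starRingEnd ℂ) (QQ z g)) :=
    Complex.continuous_conj.comp hQc
  have hPc : Continuous (fun g : Pairs n → ℝ => Psi z k g) :=
    (hcj.pow (k + 1)).mul (hQc.pow k)
  have hDPm : ∀ i j : Fin n, Measurable (DPsi z k i j) := by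
    intro i j
    have hm1 : Measurable (fun g : Pairs n → ℝ => (z - 2 * mm z g) * Dmm z i j g) :=
      (measurable_const.sub (measurable_const.mul hcm.measurable)).mul (measurable_Dmm z hz i j)
    have hm2 : Measurable (fun g : Pairs n → ℝ =>
        (starRingEnd ℂ) ((z - 2 * mm z g) * Dmm z i j g)) :=
      Complex.continuous_conj.measurable.comp hm1
    exact (((measurable_const.mul (hcj.measurable.pow_const k)).mul hm2).mul
      (hQcm.pow_const k)).add ((hcj.measurable.pow_const (k + 1)).mul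
      ((measurable_const.mul (hQcm.pow_const (k - 1))).mul hm1))
  have hmain := main_ibp z hz 0 hn (Psi z k) (DPsi z k) hPc.measurable hDPm CC
    (fun g => by
      have := hPb g
      have h2 : 0 ≤ (2 * k + 1) * CQ ^ (2 * k) *
        ((‖z‖ + 2 * η) * (((n : ℝ) * Real.sqrt n)⁻¹ * (2 * η ^ 2))) := by positivity
      rw [hCC]; linarith only [h2, this])
    (fun i j g => by
      have := hDb i j g
      have h2 : 0 ≤ CQ ^ (2 * k + 1) := by positivity
      rw [hCC]; linarith only [this, h2])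
    (fun i j h g => hasDerivAt_Psi z hz k g i j h)
  -- bound of the error
  set c : ℝ := ((n : ℝ) * Real.sqrt n)⁻¹ with hc
  have hc0 : 0 ≤ c := by positivity
  have hcc : c * c * (n : ℝ) ^ 3 = 1 := by
    rw [hc]
    have : Real.sqrt n * Real.sqrt n = n := Real.mul_self_sqrt hn'.le
    have hs0 : Real.sqrt n ≠ 0 := (Real.sqrt_pos.2 hn').ne'
    field_simp
    nlinarith [this]
  set Err : (Pairs n → ℝ) → ℂ := fun g => Psi z k g * ee z 0 g +
    (c : ℂ) * ∑ i, ∑ j, (if i = j then 0 else DPsi z k i j g * hh z 0 g i j) with hErr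
  have hErr1 : ∀ g, ‖Err g‖ ≤ ‖QQ z g‖ ^ (2 * k) * (‖QQ z g‖ * (3 * a * -(mm z g).im) +
      (2 * k + 1) * (‖z - 2 * mm z g‖ * (2 * a ^ 2 * -(mm z g).im))) := by
    intro g
    rw [mul_add]
    refine (norm_add_le _ _).trans (add_le_add ?_ ?_)
    · rw [norm_mul, norm_Psi, pow_succ, mul_assoc]
      exact mul_le_mul_of_nonneg_left (mul_le_mul_of_nonneg_left (norm_ee_zero_le z hz hn g)
        (norm_nonneg _)) (by positivity)
    · rw [norm_mul, Complex.norm_real, Real.norm_eq_abs, abs_of_nonneg hc0]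
      have h1 : ‖∑ i, ∑ j, (if i = j then 0 else DPsi z k i j g * hh z 0 g i j)‖ ≤
          (2 * k + 1) * ‖QQ z g‖ ^ (2 * k) * (‖z - 2 * mm z g‖ *
            ∑ i, ∑ j, ‖Dmm z i j g‖ * ‖Gm z g j i‖) := by
        refine (norm_sum_le _ _).trans ?_
        rw [Finset.mul_sum, Finset.mul_sum]
        refine Finset.sum_le_sum fun i _ => ?_
        refine (norm_sum_le _ _).trans ?_
        rw [Finset.mul_sum, Finset.mul_sum]
        refine Finset.sum_le_sum fun j _ => ?_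
        by_cases hij : i = j
        · simp only [hij, if_true, norm_zero]
          positivity
        · simp only [hij, if_false]
          rw [norm_mul, hh_zero]
          have h5 := mul_le_mul_of_nonneg_right (norm_DPsi_le z k i j g)
            (norm_nonneg (Gm z g j i))
          refine h5.trans (le_of_eq ?_)
          ring
      have h2 := norm_sum_Dmm_le z hz hn g
      rw [← hη, ← hc] at h2
      calc c * _ ≤ c * ((2 * k + 1) * ‖QQ z g‖ ^ (2 * k) * (‖z - 2 * mm z g‖ *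
              (c * (2 * (η * (n * (η * -(mm z g).im))))))) := by
            refine mul_le_mul_of_nonneg_left (h1.trans ?_) hc0
            exact mul_le_mul_of_nonneg_left (mul_le_mul_of_nonneg_left h2 (norm_nonneg _))
              (by positivity)
        _ = (c * c * (n : ℝ) ^ 3) * (‖QQ z g‖ ^ (2 * k) * ((2 * k + 1) *
              (‖z - 2 * mm z g‖ * (2 * a ^ 2 * -(mm z g).im)))) := by
            rw [ha]
            field_simp
        _ = _ := by rw [hcc, one_mul]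
  have hk1 : (0 : ℝ) < (k : ℝ) + 1 := by positivity
  have hErrb : ∀ g, ‖Err g‖ ≤ ‖QQ z g‖ ^ (2 * (k + 1)) / 2 +
      41 * (k + 1) * (a * t) ^ 2 * ‖QQ z g‖ ^ (2 * k) := by
    intro g
    refine (hErr1 g).trans ?_
    have epow : ‖QQ z g‖ ^ (2 * (k + 1)) = ‖QQ z g‖ ^ (2 * k) * ‖QQ z g‖ ^ 2 := by
      rw [← pow_add]; congr 1
    rw [epow]
    set Q : ℝ := ‖QQ z g‖ with hQ
    have hQ0 : 0 ≤ Q := norm_nonneg _
    have hgoal : Q * (3 * a * -(mm z g).im) +
        (2 * k + 1) * (‖z - 2 * mm z g‖ * (2 * a ^ 2 * -(mm z g).im)) ≤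
        Q ^ 2 / 2 + 41 * (k + 1) * (a * t) ^ 2 := by
      have hI := neg_im_mm_le u hu hu1 z hzu hz g
      rw [← hQ, ← ht] at hI
      have hI0 : 0 ≤ -(mm z g).im := by
        have := mm_im_nonpos z hz g
        linarith only [this]
      have hm := norm_mm_sub_le u hu z hzu hz g
      rw [← hQ, ← ht, ← le_div_iff₀ hu] at hm
      have hz2 : ‖z - 2 * mm z g‖ ≤ 4 * t + 2 * (Q / t) := by
        have e : z - 2 * mm z g = (u - u⁻¹) - 2 * (mm z g - u⁻¹) := by
          rw [hzu]; ring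
        rw [e]
        refine (norm_sub_le _ _).trans (add_le_add hus ?_)
        rw [norm_mul]
        simp only [Complex.norm_ofNat]
        linarith only [hm]
      have hQt : 0 ≤ Q / t := div_nonneg hQ0 hu.le
      have h1 : Q * (3 * a * -(mm z g).im) ≤ Q * (3 * a * (t + Q / t)) :=
        mul_le_mul_of_nonneg_left (mul_le_mul_of_nonneg_left hI (by positivity)) hQ0
      have h2 : ‖z - 2 * mm z g‖ * (2 * a ^ 2 * -(mm z g).im) ≤
          (4 * t + 2 * (Q / t)) * (2 * a ^ 2 * (t + Q / t)) :=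
        mul_le_mul hz2 (mul_le_mul_of_nonneg_left hI (by positivity))
          (mul_nonneg (by positivity) hI0) (by positivity)
      have h2' := mul_le_mul_of_nonneg_left h2 (by positivity : (0 : ℝ) ≤ 2 * k + 1)
      refine (add_le_add h1 h2').trans ?_
      -- write `P = a / t`, `P (k + 1) ≤ 1 / 48`
      have hp : a / t * (k + 1) ≤ 1 / 48 := by
        rw [div_mul_eq_mul_div, div_le_iff₀ hu]
        linarith only [hbig]
      have hp0 : 0 ≤ a / t := div_nonneg ha0.le hu.le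
      have e1 : Q * (3 * a * (t + Q / t)) = 3 * (a * t) * Q + 3 * (a / t) * Q ^ 2 := by
        ring
      have e2 : (4 * t + 2 * (Q / t)) * (2 * a ^ 2 * (t + Q / t)) =
          8 * (a * t) ^ 2 + 12 * (a / t) * (a * t) * Q + 4 * (a / t) ^ 2 * Q ^ 2 := by
        field_simp
        ring
      rw [e1, e2]
      set P : ℝ := a / t with hPdef
      set w : ℝ := a * t with hw
      have hw0 : 0 ≤ w := by positivity
      have hQ2 : 0 ≤ Q ^ 2 := sq_nonneg _
      have hwQ : 0 ≤ w * Q := mul_nonneg hw0 hQ0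
      have hk0 : (0 : ℝ) ≤ k := Nat.cast_nonneg k
      have hkP : 0 ≤ (k : ℝ) * P := mul_nonneg hk0 hp0
      have hP1 : P ≤ 1 / 48 := by linarith only [hp, hkP, hp0]
      have hP2 : (2 * k + 1) * P ≤ 1 / 24 := by linarith only [hp, hkP, hp0]
      have k1 : P * Q ^ 2 ≤ 1 / 48 * Q ^ 2 := mul_le_mul_of_nonneg_right hP1 hQ2
      have k2 : ((2 * k + 1) * P) * (w * Q) ≤ 1 / 24 * (w * Q) :=
        mul_le_mul_of_nonneg_right hP2 hwQ
      have k3 : ((2 * k + 1) * P) * P ≤ 1 / 24 * (1 / 48) :=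
        mul_le_mul hP2 hP1 hp0 (by norm_num)
      have k4 : ((2 * k + 1) * P) * P * Q ^ 2 ≤ 1 / 24 * (1 / 48) * Q ^ 2 :=
        mul_le_mul_of_nonneg_right k3 hQ2
      have k6 : w * Q ≤ Q ^ 2 / 12 + 3 * w ^ 2 := by
        linarith only [show 0 ≤ 3 * (Q / 6 - w) ^ 2 by positivity,
          show 3 * (Q / 6 - w) ^ 2 = Q ^ 2 / 12 - w * Q + 3 * w ^ 2 by ring]
      have k7 : 0 ≤ (k : ℝ) * w ^ 2 := by positivity
      have k8 : 0 ≤ w ^ 2 := sq_nonneg w
      have e3 : 3 * w * Q + 3 * P * Q ^ 2 +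
          (2 * k + 1) * (8 * w ^ 2 + 12 * P * w * Q + 4 * P ^ 2 * Q ^ 2) =
          3 * (w * Q) + 3 * (P * Q ^ 2) + (16 * (k * w ^ 2) + 8 * w ^ 2) +
          12 * (((2 * k + 1) * P) * (w * Q)) + 4 * (((2 * k + 1) * P) * P * Q ^ 2) := by
        ring
      rw [e3]
      have e4 : 41 * (k + 1) * w ^ 2 = 41 * (k * w ^ 2) + 41 * w ^ 2 := by ring
      rw [e4]
      linarith only [k1, k2, k4, k6, k7, k8, hQ2]
    calc Q ^ (2 * k) * _ ≤ Q ^ (2 * k) * (Q ^ 2 / 2 + 41 * (k + 1) * (a * t) ^ 2) :=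
          mul_le_mul_of_nonneg_left hgoal (by positivity)
      _ = _ := by ring
  have heec : Continuous (fun g : Pairs n → ℝ => ee z 0 g) := continuous_ee z hz 0
  have hErrm : Measurable Err := by
    refine (hPc.measurable.mul heec.measurable).add (measurable_const.mul ?_)
    refine Finset.measurable_sum _ fun i _ => Finset.measurable_sum _ fun j _ => ?_
    by_cases hij : i = j
    · simp only [hij, if_true]; exact measurable_const
    · simp only [hij, if_false]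
      exact (hDPm i j).mul (continuous_hh z hz 0 i j).measurable
  have hIQ : ∀ l : ℕ, Integrable (fun g : Pairs n → ℝ => ‖QQ z g‖ ^ l) (disorder n) := by
    intro l
    refine Integrable.of_bound (hQc.norm.pow l).measurable.aestronglyMeasurable
      (CQ ^ l) (Eventually.of_forall fun g => ?_)
    rw [Real.norm_eq_abs, abs_of_nonneg (by positivity)]
    exact pow_le_pow_left₀ (norm_nonneg _) (hQbdd g) l
  have hIR : Integrable (fun g : Pairs n → ℝ => ‖QQ z g‖ ^ (2 * (k + 1)) / 2 +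
      41 * (k + 1) * (a * t) ^ 2 * ‖QQ z g‖ ^ (2 * k)) (disorder n) :=
    ((hIQ _).div_const 2).add ((hIQ _).const_mul _)
  have hErrI : Integrable Err (disorder n) :=
    hIR.mono' hErrm.aestronglyMeasurable (Eventually.of_forall hErrb)
  have hcont1 : Continuous (fun g : Pairs n → ℝ => Psi z k g * (z * mm z g - 1)) :=
    hPc.mul ((continuous_const.mul hcm).sub continuous_const)
  have hI1 : Integrable (fun g : Pairs n → ℝ => Psi z k g * (z * mm z g - 1))
      (disorder n) := by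
    refine integrable_of_bdd hcont1.measurable (CQ ^ (2 * k + 1) * (‖z‖ * η + 1)) fun g => ?_
    rw [norm_mul]
    refine mul_le_mul (hPb g) ?_ (norm_nonneg _) (by positivity)
    refine (norm_sub_le _ _).trans (add_le_add ?_ (by simp))
    rw [norm_mul]
    exact mul_le_mul_of_nonneg_left (norm_mm_le z hz hn g) (norm_nonneg _)
  have hcont2 : Continuous (fun g : Pairs n → ℝ => Psi z k g * (mm z g * mm z g)) :=
    hPc.mul (hcm.mul hcm)
  have hI2 : Integrable (fun g : Pairs n → ℝ => Psi z k g * (mm z g * mm z g))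
      (disorder n) := by
    refine integrable_of_bdd hcont2.measurable (CQ ^ (2 * k + 1) * (η * η)) fun g => ?_
    rw [norm_mul, norm_mul]
    refine mul_le_mul (hPb g) ?_ (mul_nonneg (norm_nonneg _) (norm_nonneg _)) (by positivity)
    have := norm_mm_le z hz hn g
    exact mul_le_mul this this (norm_nonneg _) hη0.le
  have e1 : ∫ g : Pairs n → ℝ, Psi z k g * (z * mm z g - 1) ∂(disorder n) =
      ∫ g : Pairs n → ℝ, Psi z k g * (mm z g * mm z g) ∂(disorder n) +
      ∫ g, Err g ∂(disorder n) := by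
    rw [← integral_add hI2 hErrI]
    have : ∀ g : Pairs n → ℝ, Psi z k g * (z * mm z g - 1) =
      Psi z k g * (z * aa z 0 g - 1) := fun g => by rw [aa_zero]
    simp only [this]
    rw [hmain]
    congr 1
    ext g
    rw [hErr, aa_zero]
    push_cast
    ring
  have e2 : ∫ g : Pairs n → ℝ, ((‖QQ z g‖ ^ (2 * (k + 1)) : ℝ) : ℂ) ∂(disorder n) =
      ∫ g, Err g ∂(disorder n) := by
    have h1 : ∀ g : Pairs n → ℝ, ((‖QQ z g‖ ^ (2 * (k + 1)) : ℝ) : ℂ) =
        Psi z k g * (z * mm z g - 1) - Psi z k g * (mm z g * mm z g) := by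
      intro g
      have h2 : ((‖QQ z g‖ ^ (2 * (k + 1)) : ℝ) : ℂ) =
          ((starRingEnd ℂ) (QQ z g) * QQ z g) ^ (k + 1) := by
        rw [pow_mul]
        push_cast
        rw [Complex.conj_mul']
      rw [h2, ← mul_sub]
      have h3 : z * mm z g - 1 - mm z g * mm z g = QQ z g := by
        unfold QQ; ring
      rw [h3]
      unfold Psi
      rw [mul_pow]
      ring
    simp only [h1]
    rw [integral_sub hI1 hI2, e1]
    ring
  rw [integral_complex_ofReal] at e2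
  have h3 : |∫ g : Pairs n → ℝ, ‖QQ z g‖ ^ (2 * (k + 1)) ∂(disorder n)| =
      ‖∫ g, Err g ∂(disorder n)‖ := by
    rw [← e2, Complex.norm_real, Real.norm_eq_abs]
  have h4 := norm_integral_le_of_norm_le hIR (Eventually.of_forall hErrb)
  rw [integral_add ((hIQ _).div_const 2) ((hIQ _).const_mul _), integral_div,
    integral_const_mul] at h4
  have h5 := le_abs_self (∫ g : Pairs n → ℝ, ‖QQ z g‖ ^ (2 * (k + 1)) ∂(disorder n))
  rw [h3] at h5
  linarith only [h4, h5]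

/-- Moments of `Q`. -/
theorem moment_QQ (u : ℂ) (hu : 0 < u.im) (hu1 : 1 ≤ ‖u‖) (hus : ‖u - u⁻¹‖ ≤ 4 * u.im) (z : ℂ)
    (hzu : z = u + u⁻¹) (hz : 0 < z.im) (hn : 0 < n) (p : ℕ)
    (hbig : 48 * p * ((z.im)⁻¹ * (n : ℝ)⁻¹) ≤ u.im) (k : ℕ) (hk : k ≤ p) :
    ∫ g : Pairs n → ℝ, ‖QQ z g‖ ^ (2 * k) ∂(disorder n) ≤
      (82 * p * ((z.im)⁻¹ * (n : ℝ)⁻¹ * u.im) ^ 2) ^ k := by
  have hn' : (0 : ℝ) < n := by exact_mod_cast hn
  have hη0 : 0 < (z.im)⁻¹ := by positivity
  induction k with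
  | zero => simp
  | succ k ih =>
    have hk' : (k : ℝ) + 1 ≤ p := by exact_mod_cast hk
    have hbig' : 48 * ((k : ℝ) + 1) * ((z.im)⁻¹ * (n : ℝ)⁻¹) ≤ u.im := by
      refine le_trans ?_ hbig
      refine mul_le_mul_of_nonneg_right ?_ (by positivity)
      linarith only [hk']
    have h1 := moment_step u hu hu1 hus z hzu hz hn k hbig'
    have h2 := ih (by omega)
    refine h1.trans ?_
    rw [pow_succ' (82 * (p : ℝ) * ((z.im)⁻¹ * (n : ℝ)⁻¹ * u.im) ^ 2) k]
    refine mul_le_mul ?_ h2 (integral_nonneg fun g => by positivity) (by positivity)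
    refine mul_le_mul_of_nonneg_right ?_ (by positivity)
    linarith only [hk']

/-- High-moment local semicircle law. -/
theorem local_law_pow (u : ℂ) (hu : 0 < u.im) (hu1 : 1 ≤ ‖u‖) (hus : ‖u - u⁻¹‖ ≤ 4 * u.im)
    (z : ℂ) (hzu : z = u + u⁻¹) (hz : 0 < z.im) (hn : 0 < n) (p : ℕ)
    (hbig : 48 * p * ((z.im)⁻¹ * (n : ℝ)⁻¹) ≤ u.im) :
    ∫ g : Pairs n → ℝ, ‖mm z g - u⁻¹‖ ^ (2 * p) ∂(disorder n) ≤
      (82 * p * ((z.im)⁻¹ * (n : ℝ)⁻¹) ^ 2) ^ p := by
  have hn' : (0 : ℝ) < n := by exact_mod_cast hn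
  have hη0 : 0 < (z.im)⁻¹ := by positivity
  have h1 := moment_QQ u hu hu1 hus z hzu hz hn p hbig p le_rfl
  set CQ : ℝ := ‖z‖ * (z.im)⁻¹ + 1 + (z.im)⁻¹ ^ 2 with hCQ
  have hCQ0 : 0 ≤ CQ := by positivity
  have hQbdd : ∀ g : Pairs n → ℝ, ‖QQ z g‖ ≤ CQ := fun g => norm_QQ_le z hz hn g
  have hQc := continuous_QQ (n := n) z hz
  have hIQ : Integrable (fun g : Pairs n → ℝ => ‖QQ z g‖ ^ (2 * p)) (disorder n) := by
    refine Integrable.of_bound (hQc.norm.pow (2 * p)).measurable.aestronglyMeasurable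
      (CQ ^ (2 * p)) (Eventually.of_forall fun g => ?_)
    rw [Real.norm_eq_abs, abs_of_nonneg (by positivity)]
    exact pow_le_pow_left₀ (norm_nonneg _) (hQbdd g) (2 * p)
  have h7 : ∀ g : Pairs n → ℝ, ‖mm z g - u⁻¹‖ ^ (2 * p) ≤
      (u.im ^ (2 * p))⁻¹ * ‖QQ z g‖ ^ (2 * p) := by
    intro g
    have hm := norm_mm_sub_le u hu z hzu hz g
    have h8 := pow_le_pow_left₀ (mul_nonneg (norm_nonneg _) hu.le) hm (2 * p)
    rw [inv_mul_eq_div, le_div_iff₀ (by positivity), ← mul_pow]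
    exact h8
  have hcm := continuous_mm (n := n) z hz
  have hI3 : Integrable (fun g : Pairs n → ℝ => ‖mm z g - u⁻¹‖ ^ (2 * p)) (disorder n) := by
    refine (hIQ.const_mul ((u.im ^ (2 * p))⁻¹)).mono' ((hcm.sub continuous_const).norm.pow
      (2 * p)).measurable.aestronglyMeasurable (Eventually.of_forall fun g => ?_)
    rw [Real.norm_eq_abs, abs_of_nonneg (by positivity)]
    exact h7 g
  refine (integral_mono hI3 (hIQ.const_mul _) h7).trans ?_
  rw [integral_const_mul]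
  calc (u.im ^ (2 * p))⁻¹ * ∫ g : Pairs n → ℝ, ‖QQ z g‖ ^ (2 * p) ∂(disorder n) ≤
        (u.im ^ (2 * p))⁻¹ * (82 * p * ((z.im)⁻¹ * (n : ℝ)⁻¹ * u.im) ^ 2) ^ p :=
        mul_le_mul_of_nonneg_left h1 (by positivity)
    _ = _ := by
        have hu0 : u.im ≠ 0 := hu.ne'
        have e : 82 * p * ((z.im)⁻¹ * (n : ℝ)⁻¹ * u.im) ^ 2 =
            (82 * p * ((z.im)⁻¹ * (n : ℝ)⁻¹) ^ 2) * u.im ^ 2 := by ring
        rw [e, mul_pow, ← pow_mul, mul_comm (_ ^ p) (u.im ^ (2 * p)), ← mul_assoc,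
          inv_mul_cancel₀ (pow_ne_zero _ hu0), one_mul]

end Vale.Agent.P150.H464C
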