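import Mathlib
import Vale.Agent.P150.H425.CrLim

/-! The critical point `β = 1`: the gap is at most `C (log n)^4 n^(-2/3)` with high
probability. -/

open MeasureTheory ProbabilityTheory Filter Topology

namespace Vale.Agent.P146.H464C

open Vale.Agent.P146 Vale.Agent.P146.Ub.Cv Vale.Agent.P146.H605 Vale.Agent.P146.R2.H952
open Vale.Agent.P146.H357.Cr

lemma tendsto_log_nat : Tendsto (fun n : ℕ => Real.log n) atTop atTop :=
  Real.tendsto_log_atTop.comp tendsto_natCast_atTop_atTop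

/-- The free energy at `β = 1` is at least `log E Z - 1401 (log n)^3` with high probability. -/
theorem low_free_log : Tendsto (fun n : ℕ => (disorder n).real {g | freeEnergy n 1 g ≤
      n * Real.log 2 + 1 / 4 * ((n : ℝ) - 1) - 1401 * Real.log n ^ 3}) atTop (nhds 0) := by
  have a3 : Tendsto (fun n : ℕ => 5625 * ((Real.log n)⁻¹) ^ 2) atTop (𝓝 0) := by
    have h := ((tendsto_inv_atTop_zero.comp tendsto_log_nat).pow 2).const_mul (5625 : ℝ)
    simpa using h
  refine squeeze_zero' (Eventually.of_forall fun n => measureReal_nonneg) ?_ a3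
  filter_upwards [tendsto_log_nat.eventually_ge_atTop 1, eventually_ge_atTop 784] with n hL1 hn
  have hn1 : 1 ≤ n := by omega
  have : IsProbabilityMeasure (disorder n) := by
    rw [disorder_eq]; infer_instance
  obtain ⟨b1, b2⟩ := polylog n hn
  set L : ℝ := Real.log n with hL
  have hL0 : 0 < L := by linarith only [hL1]
  have hsub : {g | freeEnergy n 1 g ≤
      n * Real.log 2 + 1 / 4 * ((n : ℝ) - 1) - 1401 * L ^ 3} ⊆
      {g | L ^ 3 ≤ |freeEnergy n 1 g - ∫ h, freeEnergy n 1 h ∂(disorder n)|} := by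
    intro g hg
    simp only [Set.mem_ofPred_eq] at hg ⊢
    have h5 : dd n = n * Real.log 2 + 1 / 4 * ((n : ℝ) - 1) -
      ∫ g, freeEnergy n 1 g ∂(disorder n) := rfl
    rw [abs_sub_comm]
    refine le_trans ?_ (le_abs_self _)
    linarith
  have hmem : MemLp (freeEnergy n 1) 2 (disorder n) := by
    have hd := freeEnergy_dom n 1
    rw [disorder_eq]
    rw [memLp_two_iff_integrable_sq hd.cont.aestronglyMeasurable]
    exact (hd.pow 2).integrable
  have hch := meas_ge_le_variance_div_sq hmem (c := L ^ 3) (by positivity)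
  have hVp : Var[freeEnergy n 1; disorder n] ≤ (75 * L ^ 2) ^ 2 := by
    rw [← Real.sq_sqrt (variance_nonneg (freeEnergy n 1) (disorder n))]
    exact pow_le_pow_left₀ (Real.sqrt_nonneg _) b1 2
  have h6 : (disorder n).real {g | L ^ 3 ≤
      |freeEnergy n 1 g - ∫ h, freeEnergy n 1 h ∂(disorder n)|} ≤
      Var[freeEnergy n 1; disorder n] / (L ^ 3) ^ 2 := by
    unfold Measure.real
    refine ENNReal.toReal_le_of_le_ofReal ?_ hch
    exact div_nonneg (variance_nonneg _ _) (sq_nonneg _)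
  refine (measureReal_mono hsub).trans (h6.trans ?_)
  calc Var[freeEnergy n 1; disorder n] / (L ^ 3) ^ 2
      ≤ (75 * L ^ 2) ^ 2 / (L ^ 3) ^ 2 := by gcongr
    _ = 5625 * L⁻¹ ^ 2 := by
        field_simp
        norm_num

end Vale.Agent.P146.H464C

namespace Vale.Agent.P150.H464C

open Vale.Agent.P150.Cav Vale.Agent.P150.H185.Crit Vale.Agent.P150.H704 Vale.Agent.P150.H425
open Vale.Agent.P146.H464C (tendsto_log_nat)

theorem low_Z_log :
    Tendsto (fun n : ℕ => (disorder n).real {g : Pairs n → ℝ |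
      ∑ x : Cfg n, Real.exp (energy (skJ 1 g) 0 x) <
        Real.exp (-(1401 * Real.log n ^ 3)) * (2 ^ n * Real.exp (((n : ℝ) - 1) / 4))})
      atTop (𝓝 0) := by
  refine squeeze_zero (fun n => measureReal_nonneg) (fun n => ?_)
    Vale.Agent.P146.H464C.low_free_log
  have : IsProbabilityMeasure (P146.disorder n) := by
    unfold P146.disorder; infer_instance
  have hsub : {g : Pairs n → ℝ | ∑ x : Cfg n, Real.exp (energy (skJ 1 g) 0 x) <
      Real.exp (-(1401 * Real.log n ^ 3)) * (2 ^ n * Real.exp (((n : ℝ) - 1) / 4))} ⊆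
      {g | P146.freeEnergy n 1 g ≤
        n * Real.log 2 + 1 / 4 * ((n : ℝ) - 1) - 1401 * Real.log n ^ 3} := by
    intro g hg
    have hg' : ∑ x : Cfg n, Real.exp (energy (skJ 1 g) 0 x) <
      Real.exp (-(1401 * Real.log n ^ 3)) * (2 ^ n * Real.exp (((n : ℝ) - 1) / 4)) := hg
    have h2 : (2 : ℝ) ^ n = Real.exp (n * Real.log 2) := by
      rw [← Real.log_pow, Real.exp_log (by positivity)]
    rw [H357.Cr.Z_eq, h2, ← Real.exp_add, ← Real.exp_add, Real.exp_lt_exp] at hg'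
    show P146.freeEnergy n 1 g ≤ n * Real.log 2 + 1 / 4 * ((n : ℝ) - 1) - 1401 * Real.log n ^ 3
    linarith
  exact measureReal_mono (μ := P146.disorder n) hsub

/-- the scale -/
noncomputable def tt (n : ℕ) : ℝ := 30000 * ((n : ℝ) ^ (-(1 / 3 : ℝ)) * Real.log n ^ 2)

lemma tt_cube {n : ℕ} (hn : 0 < n) : (n : ℝ) * tt n ^ 3 = 30000 ^ 3 * Real.log n ^ 6 := by
  have hn' : (0 : ℝ) < n := by exact_mod_cast hn
  have e : ((n : ℝ) ^ (-(1 / 3 : ℝ))) ^ 3 = (n : ℝ)⁻¹ := by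
    rw [← Real.rpow_natCast, ← Real.rpow_mul hn'.le, ← Real.rpow_neg_one]
    congr 1
    push_cast
    ring
  unfold tt
  rw [mul_pow, mul_pow, e]
  field_simp

lemma tendsto_tt : Tendsto tt atTop (𝓝 0) := by
  have a1 : ∀ᶠ n : ℕ in atTop, Real.log n ≤ (n : ℝ) ^ (1 / 12 : ℝ) := by
    have h := (isLittleO_log_rpow_atTop (show (0 : ℝ) < 1 / 12 by norm_num)).bound one_pos
    have h2 := tendsto_natCast_atTop_atTop (R := ℝ) |>.eventually h
    filter_upwards [h2, eventually_ge_atTop 1] with n h3 hn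
    have hn1 : (1 : ℝ) ≤ n := by exact_mod_cast hn
    rw [one_mul, Real.norm_of_nonneg (Real.log_nonneg hn1),
      Real.norm_of_nonneg (by positivity)] at h3
    exact h3
  have a2 : Tendsto (fun n : ℕ => 30000 * (n : ℝ) ^ (-(1 / 6 : ℝ))) atTop (𝓝 0) := by
    have := ((tendsto_rpow_neg_atTop (show (0 : ℝ) < 1 / 6 by norm_num)).comp
      tendsto_natCast_atTop_atTop).const_mul (30000 : ℝ)
    simpa using this
  refine squeeze_zero' ?_ ?_ a2
  · filter_upwards with n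
    unfold tt; positivity
  · filter_upwards [a1, eventually_ge_atTop 1] with n h1 hn
    have hn1 : (1 : ℝ) ≤ n := by exact_mod_cast hn
    have hn0 : (0 : ℝ) < n := by linarith only [hn1]
    unfold tt
    have h2 : Real.log n ^ 2 ≤ ((n : ℝ) ^ (1 / 12 : ℝ)) ^ 2 :=
      pow_le_pow_left₀ (Real.log_nonneg hn1) h1 2
    have h3 : (n : ℝ) ^ (-(1 / 3 : ℝ)) * ((n : ℝ) ^ (1 / 12 : ℝ)) ^ 2 =
        (n : ℝ) ^ (-(1 / 6 : ℝ)) := by
      rw [← Real.rpow_natCast, ← Real.rpow_mul hn0.le, ← Real.rpow_add hn0]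
      congr 1
      push_cast
      ring
    rw [← h3]
    gcongr

theorem tendsto_prob_log :
    Tendsto (fun n : ℕ => (disorder n).real
      {g | 100 * tt n ^ 2 ≤ gap (skJ 1 g) (fun _ => 0)}) atTop (𝓝 0) := by
  have hL := tendsto_log_nat
  have hpow : ∀ k : ℕ, k ≠ 0 → Tendsto (fun n : ℕ => Real.log n ^ k) atTop atTop := fun k hk =>
    (tendsto_pow_atTop hk).comp hL
  have hexp : Tendsto (fun n : ℕ => Real.exp (-(1401 * Real.log n ^ 3))) atTop (𝓝 0) :=
    Real.tendsto_exp_atBot.comp (tendsto_neg_atTop_atBot.comp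
      ((hpow 3 (by norm_num)).const_mul_atTop (by norm_num)))
  have hinv : Tendsto (fun n : ℕ => (30000 ^ 3 * Real.log n ^ 6 : ℝ)⁻¹) atTop (𝓝 0) :=
    tendsto_inv_atTop_zero.comp ((hpow 6 (by norm_num)).const_mul_atTop (by norm_num))
  have hrhs : Tendsto (fun n : ℕ => 2 * ((disorder n).real
      {g | ∑ x, Real.exp (energy (skJ 1 g) 0 x) <
        Real.exp (-(1401 * Real.log n ^ 3)) * (2 ^ n * Real.exp (((n : ℝ) - 1) / 4))} +
      Real.exp (-(1401 * Real.log n ^ 3))) +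
      64 * ((30000 ^ 3 * Real.log n ^ 6 : ℝ)⁻¹) ^ 2) atTop (𝓝 0) := by
    have h1 := (((low_Z_log.add hexp).const_mul 2).add ((hinv.pow 2).const_mul 64))
    simpa using h1
  refine tendsto_of_tendsto_of_tendsto_of_le_of_le' tendsto_const_nhds hrhs
    (Eventually.of_forall fun n => measureReal_nonneg) ?_
  filter_upwards [eventually_gt_atTop 0, tendsto_tt.eventually_le_const (show (0 : ℝ) < 1 / 4 by
    norm_num), hL.eventually_ge_atTop 1] with n hn ht1 hL1
  have hn' : (0 : ℝ) < n := by exact_mod_cast hn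
  have hcube := tt_cube hn
  set L : ℝ := Real.log n with hLdef
  have hL0 : 0 < L := by linarith only [hL1]
  set t : ℝ := tt n with ht
  have htp : 0 < t := by
    rw [ht]; unfold tt
    have : 0 < (n : ℝ) ^ (-(1 / 3 : ℝ)) := Real.rpow_pos_of_pos hn' _
    positivity
  obtain ⟨u, huim, hnu, hnd, hu1, hus, hzim⟩ := param htp ht1 1
  set z1 : ℂ := u + u⁻¹ with hz1
  set z : ℂ := z1 - (n : ℂ)⁻¹ with hz
  have hz1z : z1 = z + (n : ℂ)⁻¹ := by rw [hz]; ring
  have hzz : z.im = z1.im := by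
    rw [hz1z, Complex.add_im]
    have : ((n : ℂ)⁻¹) = (((n : ℝ)⁻¹ : ℝ) : ℂ) := by push_cast; rfl
    rw [this, Complex.ofReal_im, add_zero]
  have hz1p : 0 < z1.im := lt_of_lt_of_le (by positivity) hzim
  have hzp : 0 < z.im := by rw [hzz]; exact hz1p
  have hu0 : 0 < u.im := by rw [huim]; exact htp
  have hnd' : ‖u - 1‖ ^ 2 = 2 * t ^ 2 := by
    have : ((1 : ℝ) : ℂ) = 1 := Complex.ofReal_one
    rw [this] at hnd
    rw [hnd]; ring
  -- the number of moments
  obtain ⟨p, hp⟩ : ∃ p : ℕ, p = ⌈2802 * L ^ 3⌉₊ := ⟨_, rfl⟩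
  have hL3 : 1 ≤ L ^ 3 := one_le_pow₀ hL1
  have hp1 : 1 ≤ p := by rw [hp]; exact Nat.one_le_ceil_iff.2 (by positivity)
  have hp2 : 2802 * L ^ 3 ≤ p := by rw [hp]; exact Nat.le_ceil _
  have hp3 : (p : ℝ) ≤ 2803 * L ^ 3 := by
    have := (Nat.ceil_lt_add_one (show 0 ≤ 2802 * L ^ 3 by positivity)).le
    rw [← hp] at this
    linarith only [this, hL3]
  have hLne : L ≠ 0 := hL0.ne'
  -- the size of `a`
  set a : ℝ := (z1.im)⁻¹ * (n : ℝ)⁻¹ with ha
  have ha0 : 0 ≤ a := by positivity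
  have hat : a / t ≤ (30000 ^ 3 * L ^ 6)⁻¹ := by
    have h1 : (z1.im)⁻¹ ≤ (t ^ 2)⁻¹ := inv_anti₀ (by positivity) hzim
    rw [← hcube]
    calc a / t ≤ (t ^ 2)⁻¹ * (n : ℝ)⁻¹ / t :=
          div_le_div_of_nonneg_right (mul_le_mul_of_nonneg_right h1 (by positivity)) htp.le
      _ = (n * t ^ 3)⁻¹ := by field_simp
  have hat0 : 0 ≤ a / t := div_nonneg ha0 htp.le
  have hp48 : 48 * (p : ℝ) * a ≤ u.im := by
    rw [huim]
    have h1 : 48 * (p : ℝ) * (a / t) ≤ 1 := by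
      calc 48 * (p : ℝ) * (a / t) ≤ 48 * (2803 * L ^ 3) * (30000 ^ 3 * L ^ 6)⁻¹ :=
            mul_le_mul (by linarith only [hp3]) hat hat0 (by positivity)
        _ = 48 * 2803 / 30000 ^ 3 * (L ^ 3)⁻¹ := by field_simp
        _ ≤ 48 * 2803 / 30000 ^ 3 * 1 :=
            mul_le_mul_of_nonneg_left (inv_le_one_of_one_le₀ hL3) (by norm_num)
        _ ≤ 1 := by norm_num
    calc 48 * (p : ℝ) * a = (48 * (p : ℝ) * (a / t)) * t := by field_simp
      _ ≤ 1 * t := mul_le_mul_of_nonneg_right h1 htp.le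
      _ = t := one_mul t
  have h1 := CrLim.rowB n u z1 p hu0 hu1 hus hz1 hz1p hn hp1 hp48
  have h2 : 614400 * (p : ℝ) ^ 2 * a / u.im ≤ Real.exp (-1) := by
    rw [huim, mul_div_assoc]
    have h3 : (p : ℝ) ^ 2 ≤ (2803 * L ^ 3) ^ 2 := pow_le_pow_left₀ (by positivity) hp3 2
    calc 614400 * (p : ℝ) ^ 2 * (a / t) ≤
          614400 * (2803 * L ^ 3) ^ 2 * (30000 ^ 3 * L ^ 6)⁻¹ :=
          mul_le_mul (by linarith only [h3]) hat hat0 (by positivity)
      _ = 614400 * 2803 ^ 2 / 30000 ^ 3 := by field_simp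
      _ ≤ 1 / 3 := by norm_num
      _ ≤ Real.exp (-1) := by
          rw [Real.exp_neg, one_div]
          exact inv_anti₀ (Real.exp_pos 1) (by
            have := Real.exp_one_lt_d9
            linarith only [this])
  have h3 : (614400 * (p : ℝ) ^ 2 * a / u.im) ^ p ≤ Real.exp (-(2802 * L ^ 3)) := by
    refine (pow_le_pow_left₀ (by positivity) h2 p).trans ?_
    rw [← Real.exp_nat_mul]
    refine Real.exp_le_exp.2 ?_
    linarith only [hp2]
  have hL6 : 1 ≤ L ^ 6 := one_le_pow₀ hL1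
  have h4 := fixed htp ht1 hn u z z1 huim hnu hnd' hu1 hus hz1 hz1z hzim
    (by rw [hcube]; linarith only [hL6])
    (fun g x => by rw [hz1z]; exact q_plant hn z hzp g x) (s := 1401 * L ^ 3) le_rfl
    (h1.trans h3)
  rw [hcube] at h4
  have e1 : Real.exp (1401 * L ^ 3) * Real.exp (-(2802 * L ^ 3)) =
      Real.exp (-(1401 * L ^ 3)) := by
    rw [← Real.exp_add]; congr 1; ring
  rw [e1] at h4
  exact h4

/-- The gap at the critical point is at most a power of `log n` times `n ^ (-2/3)`. -/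
theorem gap_polylog : ∃ C : ℝ, 0 < C ∧ WHP (fun n => {g | gap (skJ 1 g) (fun _ => 0) ≤
    C * Real.log n ^ 4 * (n : ℝ) ^ (-(2 / 3 : ℝ))}) := by
  refine ⟨100 * 30000 ^ 2, by norm_num, ?_⟩
  have hreal : Tendsto (fun n : ℕ => (disorder n).real
      {g | gap (skJ 1 g) (fun _ => 0) ≤
        100 * 30000 ^ 2 * Real.log n ^ 4 * (n : ℝ) ^ (-(2 / 3 : ℝ))}ᶜ) atTop (𝓝 0) := by
    refine tendsto_of_tendsto_of_tendsto_of_le_of_le' tendsto_const_nhds tendsto_prob_log
      (Eventually.of_forall fun n => measureReal_nonneg) ?_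
    filter_upwards [eventually_gt_atTop 0] with n hn
    have hn' : (0 : ℝ) < n := by exact_mod_cast hn
    have := prob_disorder n
    refine measureReal_mono ?_
    intro g hg
    have hg' : ¬ (gap (skJ 1 g) (fun _ => 0) ≤
      100 * 30000 ^ 2 * Real.log n ^ 4 * (n : ℝ) ^ (-(2 / 3 : ℝ))) := hg
    have e1 : 100 * tt n ^ 2 = 100 * 30000 ^ 2 * Real.log n ^ 4 * (n : ℝ) ^ (-(2 / 3 : ℝ)) := by
      have e2 : ((n : ℝ) ^ (-(1 / 3 : ℝ))) ^ 2 = (n : ℝ) ^ (-(2 / 3 : ℝ)) := by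
        rw [← Real.rpow_natCast, ← Real.rpow_mul hn'.le]
        congr 1
        push_cast
        ring
      unfold tt
      rw [← e2]
      ring
    show 100 * tt n ^ 2 ≤ gap (skJ 1 g) (fun _ => 0)
    rw [e1]
    exact (not_le.1 hg').le
  have h := ENNReal.tendsto_ofReal hreal
  rw [ENNReal.ofReal_zero] at h
  unfold WHP
  refine h.congr fun n => ?_
  have := prob_disorder n
  exact ENNReal.ofReal_toReal (measure_ne_top _ _)

/-- Slow mixing at the critical point: the exponent `2 / 3` up to logarithms. -/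
theorem crit_polylog : ∃ C : ℝ, 0 < C ∧ WHP (fun n => {g |
      gap (skJ 1 g) (fun _ => 0) ≤ C * Real.log n ^ 4 * (n : ℝ) ^ (-(2 / 3 : ℝ)) ∧
      Real.log 2 / (C * Real.log n ^ 4) * (n : ℝ) ^ (2 / 3 : ℝ) ≤
        tmix (skJ 1 g) (fun _ => 0) ∧
      ∀ t, 0 ≤ t → ∃ x, Real.exp (-(C * Real.log n ^ 4 * (n : ℝ) ^ (-(2 / 3 : ℝ)) * t)) / 2 ≤
        tvDist (skJ 1 g) (fun _ => 0) t x}) := by
  obtain ⟨C, hC, h⟩ := gap_polylog
  refine ⟨C, hC, MainThm.whp_mono h ?_⟩
  filter_upwards [eventually_gt_atTop 1] with n hn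
  intro g hg
  have hn0 : 0 < n := by omega
  have hn' : (0 : ℝ) < n := by exact_mod_cast hn0
  have hL : 0 < Real.log n := Real.log_pos (by exact_mod_cast hn)
  have hg' : gap (skJ 1 g) (fun _ => 0) ≤ C * Real.log n ^ 4 * (n : ℝ) ^ (-(2 / 3 : ℝ)) := hg
  have hp0 : 0 < (n : ℝ) ^ (-(2 / 3 : ℝ)) := Real.rpow_pos_of_pos hn' _
  have hp : 0 < C * Real.log n ^ 4 * (n : ℝ) ^ (-(2 / 3 : ℝ)) := by positivity
  refine ⟨hg', ?_, fun t ht => H185.exists_tv_ge hn0 (Asm.skJ_symm 1 g) (fun _ => 0) hg' t ht⟩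
  have h5 := tmix_ge hn0 (Vale.Agent.P150.H185.Crit.skJ_symm 1 g) (fun _ => 0)
    (a := C * Real.log n ^ 4 * (n : ℝ) ^ (-(2 / 3 : ℝ))) hp hg'
  refine le_trans (le_of_eq ?_) h5
  rw [Real.rpow_neg hn'.le]
  field_simp

end Vale.Agent.P150.H464C
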